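import Vale.Agent.P246.Q24.B3
import Vale.Agent.P246.Q24.C7
import Vale.Agent.P246.Q24.G1
import Vale.Agent.P246.Q24.E1

/-!
# The algebraic `D(2)` property of `Q_{4n}`, general `n`: reduction to kernels of unimodular columns

`d2_of`: it is enough to realize the kernel of every unimodular column of length two over
`ℤ[Q_{4n}]` as the kernel of the column `(β - α γ, (X - 1) γ - (X - Y))` of a presentation on the
standard generators whose relators have coefficients `(1, γ)` and `(α, β)`.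
-/

set_option linter.all false

namespace Vale.Agent.P246.Gen

open Vale.Agent.P246 Vale.Agent.P246.Q24 QuaternionGroup

/-- the map `(x, y) ↦ x a + y b` -/
def colR {R : Type} [Ring R] (a b : R) : (Fin 2 → R) →ₗ[R] R where
  toFun v := v 0 * a + v 1 * b
  map_add' v w := by simp only [Pi.add_apply]; noncomm_ring
  map_smul' c v := by simp only [Pi.smul_apply, smul_eq_mul, RingHom.id_apply]; noncomm_ring

/-- a complement of a free module of rank one in a free module of rank two is the kernel of a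
unimodular column -/
theorem exists_col {R : Type} [Ring R] {Q : Type} [AddCommGroup Q] [Module R Q]
    (e : (Q × R) ≃ₗ[R] (Fin 2 → R)) : ∃ a b c d : R, c * a + d * b = 1 ∧
      Nonempty (Q ≃ₗ[R] LinearMap.ker (colR a b)) := by
  let a : R := (e.symm (Pi.single 0 1)).2
  let b : R := (e.symm (Pi.single 1 1)).2
  have hp : ∀ v : Fin 2 → R, (e.symm v).2 = v 0 * a + v 1 * b := by
    intro v
    have h1 : v = v 0 • (Pi.single 0 1 : Fin 2 → R) + v 1 • (Pi.single 1 1 : Fin 2 → R) := by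
      funext i
      fin_cases i <;> simp
    conv_lhs => rw [h1]
    rw [map_add, map_smul, map_smul]
    rfl
  have h1 : (e (0, 1)) 0 * a + (e (0, 1)) 1 * b = 1 := by
    rw [← hp, LinearEquiv.symm_apply_apply]
  refine ⟨a, b, _, _, h1, ⟨?_⟩⟩
  let g : Q →ₗ[R] LinearMap.ker (colR a b) :=
    LinearMap.codRestrict (LinearMap.ker (colR a b)) (e.toLinearMap ∘ₗ LinearMap.inl R Q R) (by
      intro q
      change (e (q, 0)) 0 * a + (e (q, 0)) 1 * b = 0
      rw [← hp, LinearEquiv.symm_apply_apply])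
  refine LinearEquiv.ofBijective g ⟨?_, ?_⟩
  · rw [← LinearMap.ker_eq_bot, LinearMap.ker_eq_bot']
    intro q hq
    have h2 : e (q, 0) = 0 := congrArg Subtype.val hq
    rw [LinearEquiv.map_eq_zero_iff] at h2
    exact congrArg Prod.fst h2
  · rintro ⟨v, hv⟩
    refine ⟨(e.symm v).1, ?_⟩
    apply Subtype.ext
    change e ((e.symm v).1, 0) = v
    have h2 : (e.symm v).2 = 0 := by rw [hp]; exact hv
    rw [← h2, Prod.mk.eta, LinearEquiv.apply_symm_apply]

theorem KG_mk {T : Type} [Ring T] {a b u v : T} (c d r s : T) (h : u * a + v * b = 0 ∧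
    u * r + v * s = 1 ∧ a * c + r * u = 1 ∧ a * d + r * v = 0 ∧ b * c + s * u = 0 ∧
    b * d + s * v = 1) : KG a b u v where
  ker := h.1
  gen x y hxy := by
    obtain ⟨-, -, h1, h2, h3, h4⟩ := h
    refine ⟨x * r + y * s, ?_, ?_⟩
    · have : (x * r + y * s) * u = x * (a * c + r * u) + y * (b * c + s * u) -
        (x * a + y * b) * c := by noncomm_ring
      rw [this, h1, h3, hxy]
      simp
    · have : (x * r + y * s) * v = x * (a * d + r * v) + y * (b * d + s * v) -
        (x * a + y * b) * d := by noncomm_ring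
      rw [this, h2, h4, hxy]
      simp
  inv := ⟨r, s, h.2.1⟩

theorem KG_col {T : Type} [Ring T] (c : T) : KG 1 (-c) c 1 where
  ker := by simp
  gen x y hxy := by
    refine ⟨y, ?_, (mul_one y).symm⟩
    rw [mul_one, mul_neg, ← sub_eq_add_neg, sub_eq_zero] at hxy
    exact hxy
  inv := ⟨0, 1, by simp⟩

section

variable (n : ℕ) [NeZero n]

/-- a presentation on the standard generators with two relators -/
def mkP (r : Fin 2 → FreeGroup (Fin 2))
    (h : (FreeGroup.lift (gensQ n)).ker = Subgroup.normalClosure (Set.range r)) :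
    FinPresentation (QuaternionGroup n) where
  gens := 2
  rels := 2
  x := gensQ n
  r := r
  surj := gensQ_surj n
  ker_eq := h

/-- the second boundary map of the standard presentation -/
noncomputable def bd : (Fin 2 → ZG (QuaternionGroup n)) →ₗ[ZG (QuaternionGroup n)]
    (Fin 2 → ZG (QuaternionGroup n)) := foxD2 (P0n n)

/-- the second boundary map of `mkP` -/
noncomputable def bdP (r : Fin 2 → FreeGroup (Fin 2))
    (h : (FreeGroup.lift (gensQ n)).ker = Subgroup.normalClosure (Set.range r)) :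
    (Fin 2 → ZG (QuaternionGroup n)) →ₗ[ZG (QuaternionGroup n)]
      (Fin 2 → ZG (QuaternionGroup n)) := foxD2 (mkP n r h)

theorem bd_kap (l : ZG (QuaternionGroup n)) : bd n (l • ![Xn n - 1, Xn n - Yn n]) = 0 := by
  have h : foxD2 (resoN n).P (l • (resoN n).kap) = 0 := by
    rw [map_smul, (resoN n).dk, smul_zero]
  exact h

theorem bd_apply (v : Fin 2 → ZG (QuaternionGroup n)) :
    bd n v = ![v 0 * Nx n + v 1 * (Yn n + Xn' n), -(v 0 * (Yn n + 1)) + v 1 * (1 - Xn' n)] :=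
  foxD2_P0n n v

theorem bdP_apply (r : Fin 2 → FreeGroup (Fin 2))
    (h : (FreeGroup.lift (gensQ n)).ker = Subgroup.normalClosure (Set.range r))
    (t : Fin 2 → ZG (QuaternionGroup n)) :
    bdP n r h t = t 0 • fox (gensQ n) (r 0) + t 1 • fox (gensQ n) (r 1) := by
  have h1 : bdP n r h t = Fintype.linearCombination (ZG (QuaternionGroup n))
      (fun j : Fin 2 => fox (gensQ n) (r j)) t := rfl
  rw [h1, Fintype.linearCombination_apply, Fin.sum_univ_two]

variable {n}

/-- the map with rows `(1, γ)` and `(α, β)` -/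
def phi2 {R : Type} [Ring R] (α β γ : R) : (Fin 2 → R) →ₗ[R] (Fin 2 → R) where
  toFun t := ![t 0 + t 1 * α, t 0 * γ + t 1 * β]
  map_add' s t := by
    funext i
    fin_cases i
    · change (s 0 + t 0) + (s 1 + t 1) * α = (s 0 + s 1 * α) + (t 0 + t 1 * α)
      noncomm_ring
    · change (s 0 + t 0) * γ + (s 1 + t 1) * β = (s 0 * γ + s 1 * β) + (t 0 * γ + t 1 * β)
      noncomm_ring
  map_smul' c t := by
    funext i
    fin_cases i
    · change c * t 0 + c * t 1 * α = c * (t 0 + t 1 * α)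
      noncomm_ring
    · change c * t 0 * γ + c * t 1 * β = c * (t 0 * γ + t 1 * β)
      noncomm_ring

variable (n)

theorem bd_phi2 (r : Fin 2 → FreeGroup (Fin 2))
    (h : (FreeGroup.lift (gensQ n)).ker = Subgroup.normalClosure (Set.range r))
    (α β γ : ZG (QuaternionGroup n)) (h0 : fox (gensQ n) (r 0) = bd n ![1, γ])
    (h1 : fox (gensQ n) (r 1) = bd n ![α, β]) (t : Fin 2 → ZG (QuaternionGroup n)) :
    bd n (phi2 α β γ t) = bdP n r h t := by
  rw [bdP_apply, h0, h1, ← map_smul, ← map_smul, ← map_add]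
  congr 1
  funext i
  fin_cases i
  · change t 0 + t 1 * α = t 0 * 1 + t 1 * α
    rw [mul_one]
  · rfl

/-- the chain map on relators -/
noncomputable def phiP (r : Fin 2 → FreeGroup (Fin 2))
    (h : (FreeGroup.lift (gensQ n)).ker = Subgroup.normalClosure (Set.range r))
    (α β γ : ZG (QuaternionGroup n)) :
    (Fin (mkP n r h).rels → ZG (QuaternionGroup n)) →ₗ[ZG (QuaternionGroup n)]
      (Fin (resoN n).P.rels → ZG (QuaternionGroup n)) := phi2 α β γ

theorem mem_QPm (r : Fin 2 → FreeGroup (Fin 2))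
    (h : (FreeGroup.lift (gensQ n)).ker = Subgroup.normalClosure (Set.range r))
    (α β γ : ZG (QuaternionGroup n)) (t : Fin 2 → ZG (QuaternionGroup n))
    (l : ZG (QuaternionGroup n)) : (t, l) ∈ QP (resoN n) (mkP n r h) (phiP n r h α β γ) ↔
      bdP n r h t = 0 ∧ phi2 α β γ t = l • ![Xn n - 1, Xn n - Yn n] := Iff.rfl

/-- the forgetful map -/
def forg {R : Type} [Ring R] : ((Fin 2 → R) × R) →ₗ[R] (Fin 2 → R) where
  toFun := fun v => ![v.1 1, v.2]
  map_add' := fun v w => by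
    funext i
    fin_cases i <;> rfl
  map_smul' := fun c v => by
    funext i
    fin_cases i <;> rfl

theorem phi2_key (α β γ : ZG (QuaternionGroup n)) (t : Fin 2 → ZG (QuaternionGroup n))
    (l : ZG (QuaternionGroup n)) (h3 : phi2 α β γ t = l • ![Xn n - 1, Xn n - Yn n]) :
    t 1 * (β - α * γ) + l * ((Xn n - 1) * γ - (Xn n - Yn n)) = 0 := by
  have e0 : t 0 + t 1 * α = l * (Xn n - 1) := congrFun h3 0
  have e1 : t 0 * γ + t 1 * β = l * (Xn n - Yn n) := congrFun h3 1
  have : t 1 * (β - α * γ) + l * ((Xn n - 1) * γ - (Xn n - Yn n)) =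
    (t 0 * γ + t 1 * β) - l * (Xn n - Yn n) - (t 0 + t 1 * α - l * (Xn n - 1)) * γ := by
    noncomm_ring
  rw [this, e0, e1]
  simp

theorem phi2_inj (α β γ : ZG (QuaternionGroup n)) (t : Fin 2 → ZG (QuaternionGroup n))
    (l : ZG (QuaternionGroup n)) (h3 : phi2 α β γ t = l • ![Xn n - 1, Xn n - Yn n])
    (h5 : forg (t, l) = 0) : t = 0 ∧ l = 0 := by
  have e0 : t 0 + t 1 * α = l * (Xn n - 1) := congrFun h3 0
  have f0 : t 1 = 0 := congrFun h5 0
  have f1 : l = 0 := congrFun h5 1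
  rw [f1, f0, zero_mul, zero_mul, add_zero] at e0
  refine ⟨?_, f1⟩
  funext i
  fin_cases i
  · exact e0
  · exact f0

/-- the module attached to the presentation -/
theorem QP_ker (r : Fin 2 → FreeGroup (Fin 2))
    (h : (FreeGroup.lift (gensQ n)).ker = Subgroup.normalClosure (Set.range r))
    (α β γ : ZG (QuaternionGroup n)) (h0 : fox (gensQ n) (r 0) = bd n ![1, γ])
    (h1 : fox (gensQ n) (r 1) = bd n ![α, β]) :
    Nonempty (QP (resoN n) (mkP n r h) (phiP n r h α β γ) ≃ₗ[ZG (QuaternionGroup n)]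
      LinearMap.ker (colR (β - α * γ) ((Xn n - 1) * γ - (Xn n - Yn n)))) := by
  have key : ∀ v ∈ QP (resoN n) (mkP n r h) (phiP n r h α β γ), forg v ∈
      LinearMap.ker (colR (β - α * γ) ((Xn n - 1) * γ - (Xn n - Yn n))) := by
    rintro ⟨t, l⟩ h2
    obtain ⟨-, h3⟩ := (mem_QPm n r h α β γ t l).1 h2
    exact phi2_key n α β γ t l h3
  let f : QP (resoN n) (mkP n r h) (phiP n r h α β γ) →ₗ[ZG (QuaternionGroup n)]
      LinearMap.ker (colR (β - α * γ) ((Xn n - 1) * γ - (Xn n - Yn n))) :=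
    LinearMap.restrict forg key
  refine ⟨LinearEquiv.ofBijective f ⟨?_, ?_⟩⟩
  · rw [← LinearMap.ker_eq_bot, LinearMap.ker_eq_bot']
    rintro ⟨⟨t, l⟩, h2⟩ h4
    obtain ⟨-, h3⟩ := (mem_QPm n r h α β γ t l).1 h2
    have h5 : forg (t, l) = 0 := congrArg Subtype.val h4
    obtain ⟨e1, e2⟩ := phi2_inj n α β γ t l h3 h5
    apply Subtype.ext
    exact Prod.ext e1 e2
  · rintro ⟨v, hv⟩
    have hv' : v 0 * (β - α * γ) + v 1 * ((Xn n - 1) * γ - (Xn n - Yn n)) = 0 := hv
    have e1 : phi2 α β γ ![v 1 * (Xn n - 1) - v 0 * α, v 0] = v 1 • ![Xn n - 1, Xn n - Yn n] := by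
      funext i
      fin_cases i
      · change v 1 * (Xn n - 1) - v 0 * α + v 0 * α = v 1 * (Xn n - 1)
        rw [sub_add_cancel]
      · change (v 1 * (Xn n - 1) - v 0 * α) * γ + v 0 * β = v 1 * (Xn n - Yn n)
        have : (v 1 * (Xn n - 1) - v 0 * α) * γ + v 0 * β =
          v 0 * (β - α * γ) + v 1 * ((Xn n - 1) * γ - (Xn n - Yn n)) +
            v 1 * (Xn n - Yn n) := by noncomm_ring
        rw [this, hv', zero_add]
    have e2 : bdP n r h ![v 1 * (Xn n - 1) - v 0 * α, v 0] = 0 := by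
      rw [← bd_phi2 n r h α β γ h0 h1, e1, bd_kap]
    refine ⟨⟨(![v 1 * (Xn n - 1) - v 0 * α, v 0], v 1),
      (mem_QPm n r h α β γ ![v 1 * (Xn n - 1) - v 0 * α, v 0] (v 1)).2 ⟨e2, e1⟩⟩, ?_⟩
    apply Subtype.ext
    change ![v 0, v 1] = v
    funext i
    fin_cases i <;> rfl

/-- a relator pair of a presentation on the standard generators realizing the kernel of `(a, b)` -/
def Realized (a b : ZG (QuaternionGroup n)) : Prop :=
  ∃ (r : Fin 2 → FreeGroup (Fin 2)) (α β γ : ZG (QuaternionGroup n)),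
    (FreeGroup.lift (gensQ n)).ker = Subgroup.normalClosure (Set.range r) ∧
    fox (gensQ n) (r 0) = bd n ![1, γ] ∧ fox (gensQ n) (r 1) = bd n ![α, β] ∧
    Nonempty (LinearMap.ker (colR a b) ≃ₗ[ZG (QuaternionGroup n)]
      LinearMap.ker (colR (β - α * γ) ((Xn n - 1) * γ - (Xn n - Yn n))))

/-- the reduction -/
theorem d2_of (H : ∀ a b c d : ZG (QuaternionGroup n), c * a + d * b = 1 → Realized n a b) :
    AlgebraicD2Property (QuaternionGroup n) := by
  intro C hC
  rcases hc_main (resoN n) C hC.data with ⟨s, h⟩ | ⟨Q, _, _, ⟨e⟩, h⟩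
  · exact ⟨_, h⟩
  · obtain ⟨a, b, c, d, h1, ⟨f⟩⟩ := exists_col e
    obtain ⟨r, α, β, γ, h2, h3, h4, ⟨f'⟩⟩ := H a b c d h1
    obtain ⟨f''⟩ := QP_ker n r h2 α β γ h3 h4
    exact ⟨mkP n r h2, h (mkP n r h2) (phiP n r h2 α β γ) LinearMap.id (fun u => rfl)
      (fun t => bd_phi2 n r h2 α β γ h3 h4 t) ⟨f''.trans ((f.trans f').symm)⟩⟩

/-- relators present the group -/
theorem pres_ker {m : ℕ} (r : Fin m → FreeGroup (Fin 2))
    (h1 : ∀ j, FreeGroup.lift (gensQ n) (r j) = 1)
    (h2 : ∀ (H : Type) [Group H] (q : FreeGroup (Fin 2) →* H), (∀ j, q (r j) = 1) →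
      q (FreeGroup.of 1) * q (FreeGroup.of 1) = q (FreeGroup.of 0) ^ n ∧
      q (FreeGroup.of 0) * q (FreeGroup.of 1) * q (FreeGroup.of 0) = q (FreeGroup.of 1)) :
    (FreeGroup.lift (gensQ n)).ker = Subgroup.normalClosure (Set.range r) := by
  apply le_antisymm
  · let q := QuotientGroup.mk' (Subgroup.normalClosure (Set.range r))
    have hq : ∀ j, q (r j) = 1 := by
      intro j
      rw [← MonoidHom.mem_ker, QuotientGroup.ker_mk']
      exact Subgroup.subset_normalClosure ⟨j, rfl⟩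
    obtain ⟨e1, e2⟩ := h2 _ q hq
    set x := q (FreeGroup.of 0)
    set y := q (FreeGroup.of 1)
    have e3 : x ^ (2 * n) = 1 := by
      have h3 : x ^ n * y * x ^ n = y := pw_mid e2 n
      have h4 : x ^ n * y = y * x ^ n := by rw [← e1]; group
      rw [h4, mul_assoc, ← pow_add] at h3
      rw [two_mul]
      exact mul_eq_left.1 h3
    let ψ : QuaternionGroup n →* _ := quatHom x y e3 e1 e2
    have hψ : ψ.comp (FreeGroup.lift (gensQ n)) = q := by
      apply FreeGroup.ext_hom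
      intro i
      fin_cases i
      · simp only [MonoidHom.comp_apply, FreeGroup.lift_apply_of]
        change pw x ((1 : ZMod (2 * n))) = _
        have h5 : (1 : ZMod (2 * n)) = ((1 : ℕ) : ZMod (2 * n)) := by rw [Nat.cast_one]
        rw [pw, h5, ZMod.val_natCast]
        have h6 : 1 % (2 * n) = 1 := Nat.mod_eq_of_lt (by
          have := Nat.pos_of_ne_zero (NeZero.ne n); omega)
        rw [h6, pow_one]
        rfl
      · simp only [MonoidHom.comp_apply, FreeGroup.lift_apply_of]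
        change y * pw x (0 : ZMod (2 * n)) = _
        rw [pw_zero, mul_one]
        rfl
    intro w hw
    rw [MonoidHom.mem_ker] at hw
    have h5 : q w = 1 := by rw [← hψ, MonoidHom.comp_apply, hw, map_one]
    rwa [← MonoidHom.mem_ker, QuotientGroup.ker_mk'] at h5
  · apply Subgroup.normalClosure_le_normal
    rintro _ ⟨j, rfl⟩
    exact h1 j

/-- the Mannan-Popiel relator together with `y² = xⁿ` gives `y⁻¹ x y = x⁻¹` -/
theorem rel_aux {H : Type} [Group H] (x y : H) (h0 : y * y = x ^ n)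
    (h1 : y⁻¹ * x * y * x * x * y⁻¹ * x⁻¹ * x⁻¹ * y * x⁻¹ * x⁻¹ * x⁻¹ = 1) :
    y⁻¹ * x * y = x⁻¹ := by
  have hc : x * (y * y) = (y * y) * x := by rw [h0, ← pow_succ, ← pow_succ']
  obtain ⟨a, ha⟩ : ∃ a, a = y⁻¹ * x * y := ⟨_, rfl⟩
  have hc1 : y⁻¹ * a * y = x := by
    rw [ha]
    calc y⁻¹ * (y⁻¹ * x * y) * y = (y * y)⁻¹ * (x * (y * y)) := by group
      _ = x := by rw [hc, inv_mul_cancel_left]
  have h2 : a * x * x = x * x * x * a * a := by
    have h3 : y⁻¹ * x * y * x * x * y⁻¹ * x⁻¹ * x⁻¹ * y * x⁻¹ * x⁻¹ * x⁻¹ =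
      (a * x * x) * a⁻¹ * a⁻¹ * (x⁻¹ * x⁻¹ * x⁻¹) := by rw [ha]; group
    rw [h3] at h1
    have h4 : (a * x * x) = (a * x * x) * a⁻¹ * a⁻¹ * (x⁻¹ * x⁻¹ * x⁻¹) * (x * x * x * a * a) := by
      group
    rw [h1, one_mul] at h4
    exact h4
  have h5 : x * a * a = a * a * a * x * x := by
    calc x * a * a = (y⁻¹ * a * y) * (y⁻¹ * x * y) * (y⁻¹ * x * y) := by rw [hc1, ← ha]
      _ = y⁻¹ * (a * x * x) * y := by group
      _ = y⁻¹ * (x * x * x * a * a) * y := by rw [h2]
      _ = (y⁻¹ * x * y) * (y⁻¹ * x * y) * (y⁻¹ * x * y) * (y⁻¹ * a * y) * (y⁻¹ * a * y) := by group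
      _ = a * a * a * x * x := by rw [hc1, ← ha]
  have h6 : a * a = x⁻¹ * x⁻¹ * x⁻¹ * a * x * x := by
    calc a * a = x⁻¹ * x⁻¹ * x⁻¹ * (x * x * x * a * a) := by group
      _ = x⁻¹ * x⁻¹ * x⁻¹ * (a * x * x) := by rw [h2]
      _ = _ := by group
  have h7 : a * a * a = x⁻¹ * x⁻¹ * a := by
    calc a * a * a = (a * a * a * x * x) * x⁻¹ * x⁻¹ := by group
      _ = (x * (a * a)) * x⁻¹ * x⁻¹ := by rw [← h5, mul_assoc x a a]
      _ = (x * (x⁻¹ * x⁻¹ * x⁻¹ * a * x * x)) * x⁻¹ * x⁻¹ := by rw [← h6]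
      _ = _ := by group
  have h8 : a * a = x⁻¹ * x⁻¹ := mul_right_cancel h7
  have h9 : a = x⁻¹ := by
    calc a = (a * x * x) * x⁻¹ * x⁻¹ := by group
      _ = (x * x * x * (a * a)) * x⁻¹ * x⁻¹ := by rw [h2, mul_assoc _ a a]
      _ = x⁻¹ := by rw [h8]; group
  rw [← ha, h9]

theorem xyx_of {H : Type} [Group H] {x y : H} (h : y⁻¹ * x * y = x⁻¹) : x * y * x = y := by
  calc x * y * x = y * (y⁻¹ * x * y) * x := by group
    _ = y := by rw [h]; group

theorem fox_0 : fox (gensQ n) (relsQ n 0) = bd n ![1, 0] := by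
  rw [fox_r0, bd_apply]
  funext i
  fin_cases i
  · change Nx n = 1 * Nx n + 0 * (Yn n + Xn' n)
    rw [one_mul, zero_mul, add_zero]
  · change -(Yn n + 1) = -(1 * (Yn n + 1)) + 0 * (1 - Xn' n)
    rw [one_mul, zero_mul, add_zero]

theorem fox_1 : fox (gensQ n) (relsQ n 1) = bd n ![0, 1] := by
  rw [fox_r1, bd_apply]
  funext i
  fin_cases i
  · change Yn n + Xn' n = 0 * Nx n + 1 * (Yn n + Xn' n)
    rw [one_mul, zero_mul, zero_add]
  · change 1 - Xn' n = -(0 * (Yn n + 1)) + 1 * (1 - Xn' n)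
    rw [one_mul, zero_mul, neg_zero, zero_add]

/-- the kernel of `(1, -(X - Y))` is realized by the standard presentation -/
theorem realized_std {a b : ZG (QuaternionGroup n)}
    (e : Nonempty (LinearMap.ker (colR a b) ≃ₗ[ZG (QuaternionGroup n)]
      LinearMap.ker (colR 1 (-(Xn n - Yn n))))) : Realized n a b := by
  refine ⟨relsQ n, 0, 1, 0, gensQ_ker n, fox_0 n, fox_1 n, ?_⟩
  have e1 : (1 : ZG (QuaternionGroup n)) - 0 * 0 = 1 := by simp
  have e2 : (Xn n - 1) * 0 - (Xn n - Yn n) = -(Xn n - Yn n) := by simp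
  rw [e1, e2]
  exact e

end

end Vale.Agent.P246.Gen
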