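import Vale.Agent.P246.Gen.J
import Vale.Agent.P246.Q24.I4

/-!
# Kernel generators of unimodular columns: general lemmas
-/

set_option linter.all false

namespace Vale.Agent.P246.Gen

open Vale.Agent.P246 Vale.Agent.P246.Q24

variable {T : Type} [Ring T]

/-- the column `(a, b)` is unimodular -/
def Um (a b : T) : Prop := ∃ c d, c * a + d * b = 1

theorem Um.map {S : Type} [Ring S] (f : T →+* S) {a b : T} (h : Um a b) : Um (f a) (f b) := by
  obtain ⟨c, d, h⟩ := h
  exact ⟨f c, f d, by rw [← map_mul, ← map_mul, ← map_add, h, map_one]⟩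

theorem KG.ids {a b c d u v : T} (h : c * a + d * b = 1) (K : KG a b u v) :
    ∃ r s, u * a + v * b = 0 ∧ u * r + v * s = 1 ∧ a * c + r * u = 1 ∧ a * d + r * v = 0 ∧
      b * c + s * u = 0 ∧ b * d + s * v = 1 := by
  obtain ⟨r0, s0, h0⟩ := K.inv
  have hk := K.ker
  obtain ⟨r, hr⟩ : ∃ r, r = r0 - a * (c * r0 + d * s0) := ⟨_, rfl⟩
  obtain ⟨s, hs⟩ : ∃ s, s = s0 - b * (c * r0 + d * s0) := ⟨_, rfl⟩
  have h1 : u * r + v * s = 1 := by
    have : u * r + v * s = (u * r0 + v * s0) - (u * a + v * b) * (c * r0 + d * s0) := by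
      rw [hr, hs]; noncomm_ring
    rw [this, h0, hk, zero_mul, sub_zero]
  have h2 : c * r + d * s = 0 := by
    have : c * r + d * s = (c * r0 + d * s0) - (c * a + d * b) * (c * r0 + d * s0) := by
      rw [hr, hs]; noncomm_ring
    rw [this, h, one_mul, sub_self]
  obtain ⟨t, ht1, ht2⟩ := K.gen (1 - a * c) (-(a * d)) (by
    have : (1 - a * c) * a + -(a * d) * b = a - a * (c * a + d * b) := by noncomm_ring
    rw [this, h, mul_one, sub_self])
  have htr : t = r := by
    have e1 : t = t * (u * r + v * s) := by rw [h1, mul_one]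
    rw [e1, mul_add, ← mul_assoc, ← mul_assoc, ← ht1, ← ht2]
    have : (1 - a * c) * r + -(a * d) * s = r - a * (c * r + d * s) := by noncomm_ring
    rw [this, h2, mul_zero, sub_zero]
  obtain ⟨t', ht1', ht2'⟩ := K.gen (-(b * c)) (1 - b * d) (by
    have : -(b * c) * a + (1 - b * d) * b = b - b * (c * a + d * b) := by noncomm_ring
    rw [this, h, mul_one, sub_self])
  have htr' : t' = s := by
    have e1 : t' = t' * (u * r + v * s) := by rw [h1, mul_one]
    rw [e1, mul_add, ← mul_assoc, ← mul_assoc, ← ht1', ← ht2']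
    have : -(b * c) * r + (1 - b * d) * s = s - b * (c * r + d * s) := by noncomm_ring
    rw [this, h2, mul_zero, sub_zero]
  rw [htr] at ht1 ht2
  rw [htr'] at ht1' ht2'
  refine ⟨r, s, hk, h1, ?_, ?_, ?_, ?_⟩
  · rw [← ht1]; abel
  · rw [← ht2]; abel
  · rw [← ht1']; abel
  · rw [← ht2']; abel

/-- images of kernel generators of unimodular columns -/
theorem KG.map' {S : Type} [Ring S] (f : T →+* S) {a b u v : T} (h : Um a b) (K : KG a b u v) :
    KG (f a) (f b) (f u) (f v) := by
  obtain ⟨c, d, h⟩ := h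
  obtain ⟨r, s, h1, h2, h3, h4, h5, h6⟩ := KG.ids h K
  refine KG_mk (f c) (f d) (f r) (f s) ⟨?_, ?_, ?_, ?_, ?_, ?_⟩
  · rw [← map_mul, ← map_mul, ← map_add, h1, map_zero]
  · rw [← map_mul, ← map_mul, ← map_add, h2, map_one]
  · rw [← map_mul, ← map_mul, ← map_add, h3, map_one]
  · rw [← map_mul, ← map_mul, ← map_add, h4, map_zero]
  · rw [← map_mul, ← map_mul, ← map_add, h5, map_zero]
  · rw [← map_mul, ← map_mul, ← map_add, h6, map_one]

/-- a completion with given second row -/
theorem KG.cmp {a b c d u v : T} (h : c * a + d * b = 1) (K : KG a b u v) :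
    ∃ k, Cmp a b !![c, d; u, v] k := by
  obtain ⟨r, s, h1, h2, h3, h4, h5, h6⟩ := KG.ids h K
  have h7 : c * r + d * s = 0 := by
    have e : c * r + d * s = c * (a * c + r * u) * r + c * (a * d + r * v) * s +
        d * (b * c + s * u) * r + d * (b * d + s * v) * s := by
      rw [h3, h4, h5, h6]; noncomm_ring
    have e2 : c * (a * c + r * u) * r + c * (a * d + r * v) * s +
        d * (b * c + s * u) * r + d * (b * d + s * v) * s =
        (c * a + d * b) * (c * r + d * s) + (c * r + d * s) * (u * r + v * s) := by noncomm_ring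
    rw [e2, h, h2, one_mul, mul_one] at e
    have e3 := sub_eq_zero.2 e
    have e4 : c * r + d * s - (c * r + d * s + (c * r + d * s)) = -(c * r + d * s) := by abel
    rw [e4, neg_eq_zero] at e3
    exact e3
  refine ⟨!![a, r; b, s], ⟨?_, ?_, ?_, ?_⟩⟩
  · apply Matrix.ext
    intro i j
    fin_cases i <;> fin_cases j
    · simpa [Matrix.mul_apply, Fin.sum_univ_two] using h
    · simpa [Matrix.mul_apply, Fin.sum_univ_two] using h7
    · simpa [Matrix.mul_apply, Fin.sum_univ_two] using h1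
    · simpa [Matrix.mul_apply, Fin.sum_univ_two] using h2
  · apply Matrix.ext
    intro i j
    fin_cases i <;> fin_cases j
    · simpa [Matrix.mul_apply, Fin.sum_univ_two] using h3
    · simpa [Matrix.mul_apply, Fin.sum_univ_two] using h4
    · simpa [Matrix.mul_apply, Fin.sum_univ_two] using h5
    · simpa [Matrix.mul_apply, Fin.sum_univ_two] using h6
  · exact h
  · exact h1

/-- commutative rings -/
theorem KG_comm (hc : ∀ x y : T, x * y = y * x) {a b : T} (h : Um a b) : KG a b (-b) a := by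
  obtain ⟨c, d, h⟩ := h
  refine ⟨?_, ?_, ?_⟩
  · rw [hc a b, neg_mul, neg_add_cancel]
  · intro x y hxy
    refine ⟨y * c - x * d, ?_, ?_⟩
    · have e1 : (y * c - x * d) * -b = x * (d * b) - y * b * c := by
        rw [mul_assoc y b c, hc b c]; noncomm_ring
      have e2 : y * b = -(x * a) := by rw [eq_neg_iff_add_eq_zero, add_comm]; exact hxy
      rw [e1, e2]
      have e3 : x * (d * b) - -(x * a) * c = x * (d * b + a * c) := by noncomm_ring
      rw [e3, hc a c, add_comm (d * b), h, mul_one]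
    · have e1 : (y * c - x * d) * a = y * (c * a) - (x * a) * d := by
        rw [mul_assoc x a d, hc a d]; noncomm_ring
      have e2 : x * a = -(y * b) := by rw [eq_neg_iff_add_eq_zero]; exact hxy
      rw [e1, e2]
      have e3 : y * (c * a) - -(y * b) * d = y * (c * a + b * d) := by noncomm_ring
      rw [e3, hc b d, h, mul_one]
  · refine ⟨-d, c, ?_⟩
    rw [neg_mul_neg, hc b d, hc a c, add_comm, h]

theorem KG.scale {a b u v : T} (K : KG a b u v) {ε ε' : T} (h1 : ε * ε' = 1) (h2 : ε' * ε = 1) :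
    KG a b (ε * u) (ε * v) := by
  refine ⟨?_, ?_, ?_⟩
  · rw [mul_assoc, mul_assoc, ← mul_add, K.ker, mul_zero]
  · intro x y hxy
    obtain ⟨t, h3, h4⟩ := K.gen x y hxy
    exact ⟨t * ε', by rw [h3, mul_assoc t, ← mul_assoc ε', h2, one_mul],
      by rw [h4, mul_assoc t, ← mul_assoc ε', h2, one_mul]⟩
  · obtain ⟨r, s, hrs⟩ := K.inv
    refine ⟨r * ε', s * ε', ?_⟩
    have : ε * u * (r * ε') + ε * v * (s * ε') = ε * (u * r + v * s) * ε' := by noncomm_ring
    rw [this, hrs, mul_one, h1]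

/-- `Dbl R b` is commutative if the involution is trivial -/
theorem Dbl_comm {R : Type} [CommRing R] [Invo R] {b : Bool} (hc : ∀ r : R, conj r = r)
    (x y : Dbl R b) : x * y = y * x := by
  ext
  · simp [hc]; ring
  · simp [hc]; ring

/-- for trivial `conj` the determinant is the norm of the commutative determinant -/
theorem Dt_comm' {R : Type} [CommRing R] [Invo R] {b : Bool} (hc : ∀ r : R, conj r = r)
    (g : Matrix (Fin 2) (Fin 2) (Dbl R b)) :
    Dt g = Dbl.nrd (g 0 0 * g 1 1 - g 0 1 * g 1 0) := by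
  change (Matrix.fromBlocks !![_, _; _, _] !![_, _; _, _] !![_, _; _, _] !![_, _; _, _]).det = _
  rw [det4]
  cases b
  · simp [Dbl.nrd, hc]
    ring
  · simp [Dbl.nrd, hc]
    ring

/-- the canonical completion over a commutative ring -/
theorem Cmp_comm {R : Type} [CommRing R] [Invo R] {b : Bool} (hc : ∀ r : R, conj r = r)
    {x y c d : Dbl R b} (h : c * x + d * y = 1) :
    ∃ g k, Cmp x y g k ∧ Dt g = 1 ∧ g 1 0 = -y ∧ g 1 1 = x := by
  obtain ⟨k, hk⟩ := KG.cmp h (KG_comm (Dbl_comm hc) ⟨c, d, h⟩)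
  refine ⟨_, k, hk, ?_, rfl, rfl⟩
  rw [Dt_comm' hc]
  have : (!![c, d; -y, x] : Matrix (Fin 2) (Fin 2) (Dbl R b)) 0 0 * !![c, d; -y, x] 1 1 -
      !![c, d; -y, x] 0 1 * !![c, d; -y, x] 1 0 = c * x + d * y := by
    simp
  rw [this, h, nrd_one_b]

/-- a linear equivalence of submodules -/
theorem equiv_of {R M N : Type} [Ring R] [AddCommGroup M] [Module R M] [AddCommGroup N]
    [Module R N] (K : Submodule R M) (D : Submodule R N) (f : M →ₗ[R] N)
    (h1 : ∀ v ∈ K, f v ∈ D) (h2 : ∀ v ∈ K, f v = 0 → v = 0) (h3 : ∀ t ∈ D, ∃ v ∈ K, f v = t) :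
    Nonempty (K ≃ₗ[R] D) := by
  refine ⟨LinearEquiv.ofBijective (LinearMap.restrict f h1) ⟨?_, ?_⟩⟩
  · rw [← LinearMap.ker_eq_bot, LinearMap.ker_eq_bot']
    rintro ⟨v, hv⟩ h0
    exact Subtype.ext (h2 v hv (congrArg Subtype.val h0))
  · rintro ⟨t, ht⟩
    obtain ⟨v, hv, h⟩ := h3 t ht
    exact ⟨⟨v, hv⟩, Subtype.ext h⟩

end Vale.Agent.P246.Gen
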