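import Vale.Agent.P246.Gen.J

/-!
# The Mannan-Popiel presentation of `Q_{4n}` and its twist, general `n`

`realized_MP`, `realized_MP'`: the kernels of the columns `(be, y - x)` and `(be, y - x²)`, where
`be = (x⁻¹ - x - x²) y⁻¹`, are realized.
-/

set_option linter.all false

namespace Vale.Agent.P246.Gen

open Vale.Agent.P246 Vale.Agent.P246.Q24 QuaternionGroup

/-! ### identities in an abstract ring -/

section ring

variable {R : Type} [Ring R] {X X' Y Y' : R}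

theorem mp_0 (h1 : X * X' = 1) (h2 : X' * X = 1) (h3 : Y * Y' = 1) (h4 : Y' * Y = 1)
    (h5 : Y * X = X' * Y) (h6 : Y * X' = X * Y) (h7 : Y' * X = X' * Y') (h8 : Y' * X' = X * Y')
    (N : R) :
    Y' * ((1 + X * (0 + Y * (1 + X * (1 + X * (Y' * (X' * (X' * (0 + Y * (X' * (X' * (X' *
      (0 - 1) - 1) - 1)) - 1) - 1) - 0)))))) - 0) =
    0 * N + (X' - X - X * X) * Y' * (Y + X') := by
  have k1 : ∀ t, X * (X' * t) = t := fun t => by rw [← mul_assoc, h1, one_mul]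
  have k2 : ∀ t, X' * (X * t) = t := fun t => by rw [← mul_assoc, h2, one_mul]
  have k3 : ∀ t, Y * (Y' * t) = t := fun t => by rw [← mul_assoc, h3, one_mul]
  have k4 : ∀ t, Y' * (Y * t) = t := fun t => by rw [← mul_assoc, h4, one_mul]
  have k5 : ∀ t, Y * (X * t) = X' * (Y * t) := fun t => by rw [← mul_assoc, h5, mul_assoc]
  have k6 : ∀ t, Y * (X' * t) = X * (Y * t) := fun t => by rw [← mul_assoc, h6, mul_assoc]
  have k7 : ∀ t, Y' * (X * t) = X' * (Y' * t) := fun t => by rw [← mul_assoc, h7, mul_assoc]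
  have k8 : ∀ t, Y' * (X' * t) = X * (Y' * t) := fun t => by rw [← mul_assoc, h8, mul_assoc]
  simp only [mul_add, add_mul, mul_sub, sub_mul, mul_one, one_mul, mul_zero, zero_mul, mul_neg,
    neg_mul, zero_add, add_zero, zero_sub, sub_zero, mul_assoc, h1, h2, h3, h4, h5, h6, h7, h8,
    k1, k2, k3, k4, k5, k6, k7, k8]
  abel

theorem mp_1 (h1 : X * X' = 1) (h2 : X' * X = 1) (h3 : Y * Y' = 1) (h4 : Y' * Y = 1)
    (h5 : Y * X = X' * Y) (h6 : Y * X' = X * Y) (h7 : Y' * X = X' * Y') (h8 : Y' * X' = X * Y') :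
    Y' * ((0 + X * (1 + Y * (0 + X * (0 + X * (Y' * (X' * (X' * (1 + Y * (X' * (X' * (X' *
      (0 - 0) - 0) - 0)) - 0) - 0) - 1)))))) - 1) =
    -(0 * (Y + 1)) + (X' - X - X * X) * Y' * (1 - X') := by
  have k1 : ∀ t, X * (X' * t) = t := fun t => by rw [← mul_assoc, h1, one_mul]
  have k2 : ∀ t, X' * (X * t) = t := fun t => by rw [← mul_assoc, h2, one_mul]
  have k3 : ∀ t, Y * (Y' * t) = t := fun t => by rw [← mul_assoc, h3, one_mul]
  have k4 : ∀ t, Y' * (Y * t) = t := fun t => by rw [← mul_assoc, h4, one_mul]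
  have k5 : ∀ t, Y * (X * t) = X' * (Y * t) := fun t => by rw [← mul_assoc, h5, mul_assoc]
  have k6 : ∀ t, Y * (X' * t) = X * (Y * t) := fun t => by rw [← mul_assoc, h6, mul_assoc]
  have k7 : ∀ t, Y' * (X * t) = X' * (Y' * t) := fun t => by rw [← mul_assoc, h7, mul_assoc]
  have k8 : ∀ t, Y' * (X' * t) = X * (Y' * t) := fun t => by rw [← mul_assoc, h8, mul_assoc]
  simp only [mul_add, add_mul, mul_sub, sub_mul, mul_one, one_mul, mul_zero, zero_mul, mul_neg,
    neg_mul, zero_add, add_zero, zero_sub, sub_zero, neg_zero, mul_assoc, h1, h2, h3, h4, h5, h6,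
    h7, h8, k1, k2, k3, k4, k5, k6, k7, k8]
  abel

end ring

/-- the word `Y x y x x Y X X y X X X` -/
def wMP : List (Fin 2 × Bool) :=
  [(1, false), (0, true), (1, true), (0, true), (0, true), (1, false), (0, false), (0, false),
   (1, true), (0, false), (0, false), (0, false)]

section

variable (n : ℕ) [NeZero n]

/-- `y⁻¹` -/
noncomputable def Yn' : ZG (QuaternionGroup n) := elt (gensQ n 1)⁻¹

theorem XX' : Xn n * Xn' n = 1 := by
  have : Xn n * Xn' n = elt ((gensQ n 0) * (gensQ n 0)⁻¹) := by rw [← elt_mul_elt]; rfl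
  rw [this, mul_inv_cancel, elt_one]
theorem X'X : Xn' n * Xn n = 1 := by
  have : Xn' n * Xn n = elt ((gensQ n 0)⁻¹ * (gensQ n 0)) := by rw [← elt_mul_elt]; rfl
  rw [this, inv_mul_cancel, elt_one]
theorem YY' : Yn n * Yn' n = 1 := by
  have : Yn n * Yn' n = elt ((gensQ n 1) * (gensQ n 1)⁻¹) := by rw [← elt_mul_elt]; rfl
  rw [this, mul_inv_cancel, elt_one]
theorem Y'Y : Yn' n * Yn n = 1 := by
  have : Yn' n * Yn n = elt ((gensQ n 1)⁻¹ * (gensQ n 1)) := by rw [← elt_mul_elt]; rfl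
  rw [this, inv_mul_cancel, elt_one]

theorem YX : Yn n * Xn n = Xn' n * Yn n := by
  rw [Yn, Xn, Xn', elt_mul_elt, elt_mul_elt, xa_mul_a, a_mul_xa]
  congr 2
  abel
theorem YX' : Yn n * Xn' n = Xn n * Yn n := by
  rw [Yn, Xn, Xn', elt_mul_elt, elt_mul_elt, xa_mul_a, a_mul_xa]
  congr 2
  abel
theorem Y'X : Yn' n * Xn n = Xn' n * Yn' n := by
  have h1 : Yn' n * (Yn n * Xn' n) * Yn' n = Yn' n * (Xn n * Yn n) * Yn' n := by rw [YX']
  rw [← mul_assoc, Y'Y, one_mul, mul_assoc, mul_assoc, YY', mul_one] at h1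
  exact h1.symm
theorem Y'X' : Yn' n * Xn' n = Xn n * Yn' n := by
  have h1 : Yn' n * (Yn n * Xn n) * Yn' n = Yn' n * (Xn' n * Yn n) * Yn' n := by rw [YX]
  rw [← mul_assoc, Y'Y, one_mul, mul_assoc, mul_assoc, YY', mul_one] at h1
  exact h1.symm

theorem gw_nil (i : Fin 2) : foxWord (gensQ n) [] i = 0 := rfl
theorem gw_0t (w : List (Fin 2 × Bool)) (i : Fin 2) : foxWord (gensQ n) ((0, true) :: w) i =
    (Pi.single 0 1 : Fin 2 → ZG (QuaternionGroup n)) i + Xn n * foxWord (gensQ n) w i := by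
  rw [foxWord_true]; rfl
theorem gw_1t (w : List (Fin 2 × Bool)) (i : Fin 2) : foxWord (gensQ n) ((1, true) :: w) i =
    (Pi.single 1 1 : Fin 2 → ZG (QuaternionGroup n)) i + Yn n * foxWord (gensQ n) w i := by
  rw [foxWord_true]; rfl
theorem gw_0f (w : List (Fin 2 × Bool)) (i : Fin 2) : foxWord (gensQ n) ((0, false) :: w) i =
    Xn' n * (foxWord (gensQ n) w i - (Pi.single 0 1 : Fin 2 → ZG (QuaternionGroup n)) i) := by
  rw [foxWord_false]; rfl
theorem gw_1f (w : List (Fin 2 × Bool)) (i : Fin 2) : foxWord (gensQ n) ((1, false) :: w) i =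
    Yn' n * (foxWord (gensQ n) w i - (Pi.single 1 1 : Fin 2 → ZG (QuaternionGroup n)) i) := by
  rw [foxWord_false]; rfl

theorem t00 : (Pi.single 0 1 : Fin 2 → ZG (QuaternionGroup n)) 0 = 1 := rfl
theorem t01 : (Pi.single 0 1 : Fin 2 → ZG (QuaternionGroup n)) 1 = 0 := rfl
theorem t10 : (Pi.single 1 1 : Fin 2 → ZG (QuaternionGroup n)) 0 = 0 := rfl
theorem t11 : (Pi.single 1 1 : Fin 2 → ZG (QuaternionGroup n)) 1 = 1 := rfl

/-- the coefficient of the Mannan-Popiel relator -/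
noncomputable def be : ZG (QuaternionGroup n) := (Xn' n - Xn n - Xn n * Xn n) * Yn' n

theorem fox_wMP : fox (gensQ n) (FreeGroup.mk wMP) = bd n ![0, be n] := by
  rw [fox_mk, bd_apply]
  funext i
  fin_cases i
  · change foxWord (gensQ n) wMP 0 = 0 * Nx n + be n * (Yn n + Xn' n)
    rw [wMP, be]
    simp only [gw_nil, gw_0t, gw_0f, gw_1t, gw_1f, t00, t10]
    exact mp_0 (XX' n) (X'X n) (YY' n) (Y'Y n) (YX n) (YX' n) (Y'X n) (Y'X' n) _
  · change foxWord (gensQ n) wMP 1 = -(0 * (Yn n + 1)) + be n * (1 - Xn' n)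
    rw [wMP, be]
    simp only [gw_nil, gw_0t, gw_0f, gw_1t, gw_1f, t01, t11]
    exact mp_1 (XX' n) (X'X n) (YY' n) (Y'Y n) (YX n) (YX' n) (Y'X n) (Y'X' n)

theorem mk_wMP : (FreeGroup.mk wMP : FreeGroup (Fin 2)) =
    (FreeGroup.of 1)⁻¹ * FreeGroup.of 0 * FreeGroup.of 1 * FreeGroup.of 0 * FreeGroup.of 0 *
    (FreeGroup.of 1)⁻¹ * (FreeGroup.of 0)⁻¹ * (FreeGroup.of 0)⁻¹ * FreeGroup.of 1 *
    (FreeGroup.of 0)⁻¹ * (FreeGroup.of 0)⁻¹ * (FreeGroup.of 0)⁻¹ := rfl

/-- the relation of the group -/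
theorem rel_y : (gensQ n 1)⁻¹ * gensQ n 0 * gensQ n 1 = (gensQ n 0)⁻¹ := by
  have h1 : gensQ n 1 * (gensQ n 0)⁻¹ = gensQ n 0 * gensQ n 1 := by
    change (xa 0 : QuaternionGroup n) * a (-1) = a 1 * xa 0
    rw [xa_mul_a, a_mul_xa]
    congr 1
    abel
  rw [mul_assoc, ← h1, inv_mul_cancel_left]

theorem lift_wMP : FreeGroup.lift (gensQ n) (FreeGroup.mk wMP) = 1 := by
  rw [mk_wMP]
  simp only [map_mul, map_inv, FreeGroup.lift_apply_of]
  have h1 := rel_y n
  generalize gensQ n 0 = x at *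
  generalize gensQ n 1 = y at *
  have h2 : y⁻¹ * x⁻¹ * y = x := by
    have := congrArg (fun t => t⁻¹) h1
    simp only [mul_inv_rev, inv_inv, ← mul_assoc] at this
    exact this
  calc y⁻¹ * x * y * x * x * y⁻¹ * x⁻¹ * x⁻¹ * y * x⁻¹ * x⁻¹ * x⁻¹ =
      (y⁻¹ * x * y) * x * x * (y⁻¹ * x⁻¹ * y) * (y⁻¹ * x⁻¹ * y) * x⁻¹ * x⁻¹ * x⁻¹ := by group
    _ = 1 := by rw [h1, h2]; group

/-- the relators of the Mannan-Popiel presentation -/
def relsMP : Fin 2 → FreeGroup (Fin 2) := ![relsQ n 0, FreeGroup.mk wMP]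

/-- the relators of its twist -/
def relsMP' : Fin 2 → FreeGroup (Fin 2) :=
  ![FreeGroup.of 0 ^ n * ((FreeGroup.of 0 * FreeGroup.of 1) * (FreeGroup.of 0 * FreeGroup.of 1))⁻¹,
    FreeGroup.mk wMP]

theorem lift_r0 : FreeGroup.lift (gensQ n) (relsQ n 0) = 1 := by
  rw [← MonoidHom.mem_ker, gensQ_ker]
  exact Subgroup.subset_normalClosure ⟨0, rfl⟩

theorem gens_sq : gensQ n 1 * gensQ n 1 = gensQ n 0 ^ n := by
  have h0 := lift_r0 n
  have e0 : relsQ n 0 = FreeGroup.of 0 ^ n * (FreeGroup.of 1)⁻¹ ^ 2 := rfl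
  rw [e0, map_mul, map_pow, map_pow, map_inv, FreeGroup.lift_apply_of, FreeGroup.lift_apply_of]
    at h0
  have h := mul_eq_one_iff_eq_inv.1 h0
  rw [h, inv_pow, inv_inv, sq]

theorem hkerMP : (FreeGroup.lift (gensQ n)).ker =
    Subgroup.normalClosure (Set.range (relsMP n)) := by
  apply pres_ker
  · intro j
    fin_cases j
    · exact lift_r0 n
    · exact lift_wMP n
  · intro H _ q hq
    have h0 : q (relsQ n 0) = 1 := hq 0
    have h1 : q (FreeGroup.mk wMP) = 1 := hq 1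
    have e0 : relsQ n 0 = FreeGroup.of 0 ^ n * (FreeGroup.of 1)⁻¹ ^ 2 := rfl
    rw [e0, map_mul, map_pow, map_pow, map_inv] at h0
    rw [mk_wMP] at h1
    simp only [map_mul, map_inv] at h1
    have h2 : q (FreeGroup.of 1) * q (FreeGroup.of 1) = q (FreeGroup.of 0) ^ n := by
      have h := mul_eq_one_iff_eq_inv.1 h0
      rw [h, inv_pow, inv_inv, sq]
    exact ⟨h2, xyx_of (rel_aux n _ _ h2 h1)⟩

theorem hkerMP' : (FreeGroup.lift (gensQ n)).ker =
    Subgroup.normalClosure (Set.range (relsMP' n)) := by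
  apply pres_ker
  · intro j
    fin_cases j
    · change FreeGroup.lift (gensQ n) (FreeGroup.of 0 ^ n * ((FreeGroup.of 0 * FreeGroup.of 1) *
        (FreeGroup.of 0 * FreeGroup.of 1))⁻¹) = 1
      simp only [map_mul, map_inv, map_pow, FreeGroup.lift_apply_of]
      have h1 := rel_y n
      have h2 := gens_sq n
      generalize gensQ n 0 = x at *
      generalize gensQ n 1 = y at *
      have h3 : x * y * (x * y) = y * y := by
        calc x * y * (x * y) = y * (y⁻¹ * x * y) * x * y := by group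
          _ = y * y := by rw [h1]; group
      rw [h3, h2, mul_inv_cancel]
    · exact lift_wMP n
  · intro H _ q hq
    have h0 : q (FreeGroup.of 0 ^ n * ((FreeGroup.of 0 * FreeGroup.of 1) *
        (FreeGroup.of 0 * FreeGroup.of 1))⁻¹) = 1 := hq 0
    have h1 : q (FreeGroup.mk wMP) = 1 := hq 1
    rw [mk_wMP] at h1
    simp only [map_mul, map_inv, map_pow] at h0 h1
    generalize q (FreeGroup.of 0) = x at *
    generalize q (FreeGroup.of 1) = y at *
    have e1 : (x * y) * (x * y) = x ^ n := (mul_inv_eq_one.1 h0).symm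
    have e2 : (x * y)⁻¹ * x * (x * y) * x * x * (x * y)⁻¹ * x⁻¹ * x⁻¹ * (x * y) * x⁻¹ * x⁻¹ * x⁻¹
        = 1 := by
      calc (x * y)⁻¹ * x * (x * y) * x * x * (x * y)⁻¹ * x⁻¹ * x⁻¹ * (x * y) * x⁻¹ * x⁻¹ * x⁻¹ =
          y⁻¹ * x * y * x * x * y⁻¹ * x⁻¹ * x⁻¹ * y * x⁻¹ * x⁻¹ * x⁻¹ := by group
        _ = 1 := h1
    have e3 := rel_aux n x (x * y) e1 e2
    have e4 : y⁻¹ * x * y = x⁻¹ := by
      rw [← e3]
      group
    have e5 : x * y * x = y := xyx_of e4
    refine ⟨?_, e5⟩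
    calc y * y = (x * y * x) * y := by rw [e5]
      _ = (x * y) * (x * y) := by group
      _ = x ^ n := e1

theorem fox_r0' : fox (gensQ n) (FreeGroup.of 0 ^ n * ((FreeGroup.of 0 * FreeGroup.of 1) *
    (FreeGroup.of 0 * FreeGroup.of 1))⁻¹) = bd n ![1, -Xn n] := by
  have h1 := fox_r0 n
  have e0 : relsQ n 0 = FreeGroup.of 0 ^ n * (FreeGroup.of 1)⁻¹ ^ 2 := rfl
  have hk : FreeGroup.lift (gensQ n) ((FreeGroup.of 0 * FreeGroup.of 1) *
    (FreeGroup.of 0 * FreeGroup.of 1)) = gensQ n 1 * gensQ n 1 := by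
    simp only [map_mul, FreeGroup.lift_apply_of]
    have h1 := rel_y n
    generalize gensQ n 0 = x at *
    generalize gensQ n 1 = y at *
    calc x * y * (x * y) = y * (y⁻¹ * x * y) * x * y := by group
      _ = y * y := by rw [h1]; group
  have hN : fox (gensQ n) (FreeGroup.of 0 ^ n) = ![Nx n, 0] := by
    rw [fox_pow_gen]
    funext i
    fin_cases i
    · change (∑ j ∈ Finset.range n, elt (gensQ n 0 ^ j)) * 1 = Nx n
      rw [mul_one, Nx]
      apply Finset.sum_congr rfl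
      intro k _
      congr 1
      exact a_one_pow k
    · change (∑ j ∈ Finset.range n, elt (gensQ n 0 ^ j)) * 0 = 0
      rw [mul_zero]
  have hxy : fox (gensQ n) ((FreeGroup.of 0 * FreeGroup.of 1) *
    (FreeGroup.of 0 * FreeGroup.of 1)) = ![1 + Xn n * Yn n, Xn n + Yn n] := by
    rw [fox_mul, fox_mul, fox_of, fox_of]
    simp only [map_mul, FreeGroup.lift_apply_of]
    funext i
    fin_cases i
    · change (1 + Xn n * 0) + elt (gensQ n 0 * gensQ n 1) * (1 + Xn n * 0) = 1 + Xn n * Yn n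
      rw [← elt_mul_elt, mul_zero, add_zero, mul_one]
      rfl
    · change (0 + Xn n * 1) + elt (gensQ n 0 * gensQ n 1) * (0 + Xn n * 1) = Xn n + Yn n
      rw [← elt_mul_elt, mul_one, zero_add]
      change Xn n + Xn n * Yn n * Xn n = _
      rw [mul_assoc, YX, ← mul_assoc, XX', one_mul]
  rw [fox_mul, fox_inv, hN, hxy, map_pow, FreeGroup.lift_apply_of, hk, gens_sq, bd_apply,
    smul_neg, ← smul_assoc, smul_eq_mul, elt_mul_elt, mul_inv_cancel, elt_one, one_smul]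
  funext i
  fin_cases i
  · change Nx n + -(1 + Xn n * Yn n) = 1 * Nx n + -Xn n * (Yn n + Xn' n)
    rw [mul_add, neg_mul, neg_mul, XX', one_mul]
    abel
  · change 0 + -(Xn n + Yn n) = -(1 * (Yn n + 1)) + -Xn n * (1 - Xn' n)
    rw [mul_sub, neg_mul, neg_mul, XX', one_mul, mul_one]
    abel

/-- the kernel of `(be, y - x)` is realized by the Mannan-Popiel presentation -/
theorem realized_MP {a b : ZG (QuaternionGroup n)}
    (e : Nonempty (LinearMap.ker (colR a b) ≃ₗ[ZG (QuaternionGroup n)]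
      LinearMap.ker (colR (be n) (Yn n - Xn n)))) : Realized n a b := by
  refine ⟨relsMP n, 0, be n, 0, hkerMP n, fox_0 n, fox_wMP n, ?_⟩
  have e1 : be n - 0 * 0 = be n := by rw [mul_zero, sub_zero]
  have e2 : (Xn n - 1) * 0 - (Xn n - Yn n) = Yn n - Xn n := by rw [mul_zero, zero_sub, neg_sub]
  rw [e1, e2]
  exact e

/-- the kernel of `(be, y - x²)` is realized by the twisted presentation -/
theorem realized_MP' {a b : ZG (QuaternionGroup n)}
    (e : Nonempty (LinearMap.ker (colR a b) ≃ₗ[ZG (QuaternionGroup n)]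
      LinearMap.ker (colR (be n) (Yn n - Xn n * Xn n)))) : Realized n a b := by
  refine ⟨relsMP' n, 0, be n, -Xn n, hkerMP' n, fox_r0' n, fox_wMP n, ?_⟩
  have e1 : be n - 0 * -Xn n = be n := by rw [zero_mul, sub_zero]
  have e2 : (Xn n - 1) * -Xn n - (Xn n - Yn n) = Yn n - Xn n * Xn n := by noncomm_ring
  rw [e1, e2]
  exact e

end

end Vale.Agent.P246.Gen
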